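import Vale.Agent.P054.T2.H428.Flat

set_option autoImplicit false
set_option linter.all false

/-!
# P054 / T3: the direction space of the other side, case (A')

If `V₁` is isotropic of dimension `n`, `w ∉ V₁` and `V₁ + ℝ w` is isotropic, then the direction
space `V₂` of the other side (which is perpendicular to `V₁`) lies in `V₁ + ℝ w`.
-/

namespace Vale.Agent.P054.T3.H21

open MvPolynomial Finset Module
open Vale.Agent.P054.T2
open Vale.Agent.P054.T2.SecC
open Vale.Agent.P054.T2.SecC.Side (BfL qq eval_qq)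
open Vale.Agent.P054.T2.H930
open Vale.Agent.P054.T2.H686 (Qf Bf Qf_add Qf_smul Bf_smul_right)
open Vale.Agent.P054.T2.H192 (Iso W orth mem_orth mem_orth' Bf_comm Bf_add_right Bf_add_left
  Bf_smul_left Bf_self finrank_orth)

variable {n : ℕ}

theorem orth_anti {V V' : Submodule ℝ (ZZ n)} (h : V ≤ V') :
    orth (k := ℝ) (n := n) V' ≤ orth (k := ℝ) (n := n) V := fun _ ha =>
  mem_orth.2 fun b hb => mem_orth.1 ha b (h hb)

theorem orth_orth (V : Submodule ℝ (ZZ n)) :
    orth (k := ℝ) (n := n) (orth (k := ℝ) (n := n) V) = V := by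
  have h1 := finrank_orth (k := ℝ) (n := n) V
  have h2 := finrank_orth (k := ℝ) (n := n) (orth (k := ℝ) (n := n) V)
  refine (Submodule.eq_of_le_of_finrank_eq ?_ ?_).symm
  · intro a ha
    exact mem_orth.2 fun b hb => mem_orth'.1 hb a ha
  · omega

theorem Bf_sub_right (s r r' : ZZ n) : Bf s (r - r') = Bf s r - Bf s r' := by
  have h : r - r' = r + (-1 : ℝ) • r' := by rw [neg_one_smul, sub_eq_add_neg]
  rw [h, Bf_add_right, Bf_smul_right]
  ring

/-- a hyperbolic partner of `w` in the orthogonal complement of `V` -/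
theorem exists_partner {V : Submodule ℝ (ZZ n)} {w : ZZ n} (hw : w ∉ V) (hq : Qf w = 0)
    (hwV : ∀ a ∈ V, Bf w a = 0) :
    ∃ w' ∈ orth (k := ℝ) (n := n) V, Qf w' = 0 ∧ Bf w w' = 1 := by
  obtain ⟨x, hx, hne⟩ : ∃ x ∈ orth (k := ℝ) (n := n) V, Bf w x ≠ 0 := by
    by_contra hcon
    push Not at hcon
    refine hw ?_
    rw [← orth_orth V]
    exact mem_orth'.2 hcon
  have hwO : w ∈ orth (k := ℝ) (n := n) V := mem_orth'.2 hwV
  obtain ⟨y, hyO, hy1⟩ : ∃ y ∈ orth (k := ℝ) (n := n) V, Bf w y = 1 :=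
    ⟨(Bf w x)⁻¹ • x, Submodule.smul_mem _ _ hx, by rw [Bf_smul_right, inv_mul_cancel₀ hne]⟩
  have hww : Bf w w = 0 := by rw [Bf_self, hq, mul_zero]
  refine ⟨y - Qf y • w, Submodule.sub_mem _ hyO (Submodule.smul_mem _ _ hwO), ?_, ?_⟩
  · have h1 : y - Qf y • w = y + (-(Qf y)) • w := by rw [neg_smul, sub_eq_add_neg]
    rw [h1, Qf_add, Qf_smul, hq, Bf_smul_right, Bf_comm y w, hy1]
    ring
  · rw [Bf_sub_right, Bf_smul_right, hww, hy1]
    ring

/-- on `V^⊥` the quadric is a product of two linear forms -/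
theorem Qf_orth {V : Submodule ℝ (ZZ n)} {w w' : ZZ n} (hw : w ∉ V)
    (hd : finrank ℝ V = n) (hI : Iso (V ⊔ Submodule.span ℝ {w}))
    (hw' : w' ∈ orth (k := ℝ) (n := n) V) (hq' : Qf w' = 0) (h1 : Bf w w' = 1) {x : ZZ n}
    (hx : x ∈ orth (k := ℝ) (n := n) V) : Qf x = Bf w x * Bf w' x := by
  have hwU : w ∈ V ⊔ Submodule.span ℝ {w} :=
    Submodule.mem_sup_right (Submodule.mem_span_singleton_self _)
  have hq : Qf w = 0 := hI w hwU
  have hww : Bf w w = 0 := by rw [Bf_self, hq, mul_zero]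
  have hww' : Bf w' w' = 0 := by rw [Bf_self, hq', mul_zero]
  have hwO : w ∈ orth (k := ℝ) (n := n) V :=
    mem_orth'.2 fun a ha => hI.Bf_eq_zero hwU (Submodule.mem_sup_left ha)
  have hdU : finrank ℝ (V ⊔ Submodule.span ℝ {w} : Submodule ℝ (ZZ n)) = n + 1 := by
    rw [H192.finrank_sup_span _ hw, hd]
  obtain ⟨y, hy⟩ : ∃ y : ZZ n, y = x - Bf w' x • w - Bf w x • w' := ⟨_, rfl⟩
  have hyU : y ∈ V ⊔ Submodule.span ℝ {w} := by
    rw [hI.eq_orth hdU]
    refine mem_orth'.2 fun b hb => ?_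
    obtain ⟨a, ha, c, hc, rfl⟩ := Submodule.mem_sup.1 hb
    obtain ⟨t, rfl⟩ := Submodule.mem_span_singleton.1 hc
    have hyO : y ∈ orth (k := ℝ) (n := n) V := by
      rw [hy]
      exact Submodule.sub_mem _ (Submodule.sub_mem _ hx (Submodule.smul_mem _ _ hwO))
        (Submodule.smul_mem _ _ hw')
    rw [Bf_add_right, Bf_smul_right, mem_orth'.1 hyO a ha, Bf_comm y w, hy, Bf_sub_right,
      Bf_sub_right, Bf_smul_right, Bf_smul_right, hww, h1]
    ring
  have hqy : Qf y = 0 := hI y hyU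
  have hwy : Bf w y = 0 := hI.Bf_eq_zero hwU hyU
  have hw'y : Bf w' y = 0 := by
    rw [hy, Bf_sub_right, Bf_sub_right, Bf_smul_right, Bf_smul_right, hww', Bf_comm w' w, h1]
    ring
  have hxy : x = y + (Bf w' x • w + Bf w x • w') := by rw [hy]; abel
  conv_lhs => rw [hxy]
  rw [Qf_add, Qf_add, Qf_smul, Qf_smul, hq, hq', hqy, Bf_add_right, Bf_smul_right, Bf_smul_right,
    Bf_smul_right, Bf_smul_left, h1, Bf_comm y w, hwy, Bf_comm y w', hw'y]
  ring

variable {A : Finset (ZZ n × ZZ n)} {Wt D σ v : ℕ}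

/-- case (A'): the direction space of the other side lies in the isotropic flat -/
theorem V_le_of_perp (S : Side n A Wt D σ v) {e : ZZ n × ZZ n} (he : e ∈ A)
    {V₁ : Submodule ℝ (ZZ n)} (hw : e.1 - e.2 ∉ V₁) (hd : finrank ℝ V₁ = n)
    (hI : Iso (V₁ ⊔ Submodule.span ℝ {e.1 - e.2}))
    (hperp : ∀ a ∈ S.V e, ∀ b ∈ V₁, Bf a b = 0) :
    S.V e ≤ V₁ ⊔ Submodule.span ℝ {e.1 - e.2} := by
  classical
  set w := e.1 - e.2 with hwdef
  have hwU : w ∈ V₁ ⊔ Submodule.span ℝ {w} :=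
    Submodule.mem_sup_right (Submodule.mem_span_singleton_self _)
  have hq : Qf w = 0 := hI w hwU
  have hwV : ∀ a ∈ V₁, Bf w a = 0 := fun a ha => hI.Bf_eq_zero hwU (Submodule.mem_sup_left ha)
  have hwO : w ∈ orth (k := ℝ) (n := n) V₁ := mem_orth'.2 hwV
  have hww : Bf w w = 0 := by rw [Bf_self, hq, mul_zero]
  have hdU : finrank ℝ (V₁ ⊔ Submodule.span ℝ {w} : Submodule ℝ (ZZ n)) = n + 1 := by
    rw [H192.finrank_sup_span _ hw, hd]
  obtain ⟨w', hw', hq', h1⟩ := exists_partner hw hq hwV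
  have hV₂ : S.V e ≤ orth (k := ℝ) (n := n) V₁ := fun a ha => mem_orth'.2 fun b hb =>
    hperp a ha b hb
  -- the product of the two linear forms lies in the prime
  have hmem : linL (BfL w) e.2 * (linL (BfL w') e.2 - C 1) ∈ S.Pr e := by
    have h2 : qq e.1 - linL (BfL w) e.2 * (linL (BfL w') e.2 - C 1) ∈ S.Pr e := by
      refine S.mem_Pr_of_flat fun b hb => ?_
      have hbO : b - w ∈ orth (k := ℝ) (n := n) V₁ := Submodule.sub_mem _ (hV₂ hb) hwO
      have h3 : e.2 + b - e.1 = b - w := by rw [hwdef]; abel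
      have h4 : BfL w (e.2 + b) - BfL w e.2 = Bf w b := by
        rw [map_add]
        show Bf w e.2 + Bf w b - Bf w e.2 = Bf w b
        ring
      have h5 : BfL w' (e.2 + b) - BfL w' e.2 = Bf w' b := by
        rw [map_add]
        show Bf w' e.2 + Bf w' b - Bf w' e.2 = Bf w' b
        ring
      rw [map_sub, eval_qq, map_mul, map_sub, eval_C, eval_linL, eval_linL, h3, h4, h5,
        Qf_orth hw hd hI hw' hq' h1 hbO, Bf_sub_right w b w, Bf_sub_right w' b w, hww,
        Bf_comm w' w, h1]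
      ring
    have h6 := Ideal.sub_mem _ (S.qq_mem he) h2
    rwa [sub_sub_cancel] at h6
  have hprime : (S.Pr e).IsPrime := by
    have h2 : (S.P e).IsPrime := H930.germ_isPrime (fun i => S.hzero e he i) (S.hind e he)
    unfold Side.Pr
    exact Ideal.comap_isPrime _ _
  have hlin : linL (BfL w) e.2 ∈ S.Pr e := by
    rcases hprime.mem_or_mem hmem with h | h
    · exact h
    · exfalso
      have h2 := S.eval_eq_zero_of_mem_Pr he h
      rw [map_sub, eval_C, eval_linL, sub_self] at h2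
      norm_num at h2
  intro x hx
  rw [hI.eq_orth hdU]
  refine mem_orth'.2 fun b hb => ?_
  obtain ⟨a, ha, c, hc, rfl⟩ := Submodule.mem_sup.1 hb
  obtain ⟨t, rfl⟩ := Submodule.mem_span_singleton.1 hc
  have h3 : Bf w x = 0 := S.mem_V.1 hx _ hlin
  rw [Bf_add_right, Bf_smul_right, hperp x hx a ha, Bf_comm x w, h3]
  ring

end Vale.Agent.P054.T3.H21
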